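import Vale.Agent.P212.H268.Final

namespace Vale.Agent.Results.P212.CoarseNovikovFails

open Vale.Agent.P212

theorem result : ∃ (X : Type) (_ : MetricSpace X) (_ : BddGeometry X) (_ : UnifDiscrete X),
    (∃ (H A : Type) (_ : NormedAddCommGroup H) (_ : InnerProductSpace ℂ H)
      (_ : CompleteSpace H) (_ : NonUnitalCStarAlgebra A), Counterexample X H A) ∧
    (∃ (H A : Type) (_ : NormedAddCommGroup H) (_ : InnerProductSpace ℂ H)
      (_ : CompleteSpace H) (_ : NonUnitalCStarAlgebra A) (b : HilbertBasis (X × ℕ) ℂ H)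
      (i : (H →L[ℂ] H) → A) (p : X × ℕ → X →₀ ℚ),
      IsReducedRoe b i ∧ IsPlacement p ∧ ¬ RatInjective b i p) ∧
    ∀ (H A : Type) [NormedAddCommGroup H] [InnerProductSpace ℂ H] [CompleteSpace H]
      [NonUnitalCStarAlgebra A] (b : HilbertBasis (X × ℕ) ℂ H) (i : (H →L[ℂ] H) → A)
      (p : X × ℕ → X →₀ ℚ),
      IsMaxRoe b i ∨ IsReducedRoe b i ∨ IsRoeCompletion b i → IsPlacement p →
        ¬ RatInjective b i p ∧ IndepInKernel b i p ℝ :=
  H268.main

end Vale.Agent.Results.P212.CoarseNovikovFails
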