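import Vale.Agent.P212.H35C.Final

namespace Vale.Agent.Results.P212.ContinuumOfSpaces

open Vale.Agent.P212

theorem result : ∃ (X : ℝ → Type) (_ : ∀ t, MetricSpace (X t)),
    (∀ t, BddGeometry (X t) ∧ UnifDiscrete (X t)) ∧
    (∀ s t, s ≠ t → ¬ CoarselyEquivalent (X s) (X t)) ∧
    ∀ t,
      (∃ (H A : Type) (_ : NormedAddCommGroup H) (_ : InnerProductSpace ℂ H)
        (_ : CompleteSpace H) (_ : NonUnitalCStarAlgebra A), Counterexample (X t) H A) ∧
      (∃ (H A : Type) (_ : NormedAddCommGroup H) (_ : InnerProductSpace ℂ H)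
        (_ : CompleteSpace H) (_ : NonUnitalCStarAlgebra A) (b : HilbertBasis (X t × ℕ) ℂ H)
        (i : (H →L[ℂ] H) → A) (p : X t × ℕ → X t →₀ ℚ),
        IsReducedRoe b i ∧ IsPlacement p ∧ ¬ RatInjective b i p) ∧
      ∀ (H A : Type) [NormedAddCommGroup H] [InnerProductSpace ℂ H] [CompleteSpace H]
        [NonUnitalCStarAlgebra A] (b : HilbertBasis (X t × ℕ) ℂ H) (i : (H →L[ℂ] H) → A)
        (p : X t × ℕ → X t →₀ ℚ),
        IsMaxRoe b i ∨ IsReducedRoe b i ∨ IsRoeCompletion b i → IsPlacement p →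
          ¬ RatInjective b i p ∧ IndepInKernel b i p ℝ :=
  H35C.main

end Vale.Agent.Results.P212.ContinuumOfSpaces
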